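import Vale.Agent.P370S.Fin

/-!
# P370: the bottom of the spectrum of the electronic Hamiltonian is QMA-hard

For every instance the Coulomb form on `H¹ ∩ ⋀^N L²(ℝ³; ℂ²)` is densely defined, bounded below and
closed, its operator `H` is self-adjoint with real spectrum and `E₀ = inf spec H` is the least
point of the spectrum and the infimum of the form on unit vectors; for every exponent `c`
the promise problem (YES: `E₀ ≤ a`, NO: `E₀ ≥ b`, promise `b - a ≥ L^{-c}`) is QMA-hard under
polynomial time many-one reductions.
-/

namespace Vale.Agent.Results.P370.ASpectrum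

open Vale.Agent.P370Z Vale.Agent.P370T

theorem result :
    (∀ I : Instance, GoodF (amp I.N) I.potential) ∧ ∀ c : ℕ, QMAHard (yesS c) (noS c) :=
  ⟨good, hard⟩

end Vale.Agent.Results.P370.ASpectrum
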